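import Vale.Agent.P146.Defs
import Vale.Agent.P146.H605.Defs
import Vale.Agent.P146.H605.Defs2
import Vale.Agent.P146.R2.H749.LevDefs
import Vale.Agent.P146.R3.OrdDefs
import Vale.Agent.P146.R3.H49.LinDefs
import Vale.Agent.P146.R3.H732.SmoothDef
import Vale.Agent.P146.R3.H793.LevP
import Vale.Agent.P146.R3.H49.Fin
import Vale.Agent.P146.R3.H732.Fin
import Vale.Agent.P146.R3.H316.Order2

/-!
# P146: the exact chaos function of the Sherrington-Kirkpatrick model at low temperature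

For every `β > 1` let `x` be the order parameter, that is the limit of the distribution functions
of the near minimisers of the Parisi functional, let `m_k = (k+1) ∫₀¹ (β ∫_y^1 x)^k dy` and
`K_∞(t) = (β²/2) ∑_{k ≥ 1} t^(k+1) m_k²/(k+1)`.
* `β ∫₀¹ x = 1`, and `x` has the slope `a = a(β) > 0` at the origin, `a(β) → 2` as `β → 1+`; this
  slope governs the exponential moments, `log E exp(s (F_n - n p)) ~ (9 β³ / (640 a³)) n s⁶`.
* For two disorders of correlation `t < 1`, `n E⟨R²⟩` converges to `∑ t^k m_k²` and the covariance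
  of the two free energies converges to `K_∞(t)`; `(1 - t) K_∞(t) → π β / (4 a)` as `t → 1`.
* The projection of the free energy onto the Hermite level `k + 1` is asymptotically the linear
  eigenvalue statistic `(β m_k / (2 (k+1))) tr C_{k+1}(W)`, centred, `W = g / √n`, and its variance
  converges to `β² m_k² / (2 (k+1))`; `m_k² ~ π k / (2 a β)`.
* The conditional expectations `E[F_n | z]` of the free energy at all noise levels `t < 1` are
  asymptotically linear eigenvalue statistics of `z / √n`, and converge to a Gaussian process with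
  covariance `K_∞(√(s t))`.
-/

open MeasureTheory ProbabilityTheory Filter Topology

namespace Vale.Agent.P146.R3.V3

open Vale.Agent.P146 Vale.Agent.P146.H605 Vale.Agent.P146.R3 Vale.Agent.P146.R3.H952
  Vale.Agent.P146.R3.H793 Vale.Agent.P146.R3.P316

theorem result : ∃ a : ℝ → ℝ, Tendsto a (𝓝[>] 1) (𝓝 2) ∧ ∀ β : ℝ, 1 < β → 0 < a β ∧
    ∃ (p : ℝ) (x : ℝ → ℝ),
      -- the Parisi formula and its order parameter
      Tendsto (fun n : ℕ => (∫ g, freeEnergy n β g ∂(disorder n)) / n) atTop (𝓝 p) ∧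
      IsGLB {v : ℝ | ∃ (K : ℕ) (m q : ℕ → ℝ), OrdPar K m q ∧ v = Real.log 2 + parisiSK β K m q}
        p ∧
      Monotone x ∧ (∀ u, x u ∈ Set.Icc (0 : ℝ) 1) ∧
      (∀ ε : ℝ, 0 < ε → ∃ δ : ℝ, 0 < δ ∧ ∀ (K : ℕ) (m q : ℕ → ℝ), OrdPar K m q →
        Real.log 2 + parisiSK β K m q ≤ p + δ → ∀ y ∈ Set.Icc (0 : ℝ) 1,
          |(∫ u in y..1, dfn K m q u) - ∫ u in y..1, x u| ≤ ε) ∧
      β * (∫ u in (0 : ℝ)..1, x u) = 1 ∧
      Tendsto (fun y => x y / y) (𝓝[>] 0) (𝓝 (a β)) ∧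
      -- the exponential moments
      (∀ ε : ℝ, 0 < ε → ∃ δ : ℝ, 0 < δ ∧ ∀ᶠ n : ℕ in atTop,
        ∀ s : ℝ, (n : ℝ) ^ (-(1 / 36) : ℝ) ≤ s → s ≤ δ →
          |Real.log (∫ g, Real.exp (s * (freeEnergy n β g - n * p)) ∂(disorder n)) -
            9 * β ^ 3 / (640 * a β ^ 3) * n * s ^ 6| ≤ ε * n * s ^ 6) ∧
      -- the growth of the moments and of the limiting covariance
      Tendsto (fun k : ℕ => mom β x k ^ 2 / ((k : ℝ) + 1)) atTop
        (𝓝 (Real.pi / (2 * a β * β))) ∧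
      Tendsto (fun t : ℝ => (1 - t) * covLim β x t) (𝓝[<] 1)
        (𝓝 (Real.pi * β / (4 * a β))) ∧
      -- two disorders of correlation `t`
      (∀ t : ℝ, 0 ≤ t → t < 1 →
        Tendsto (fun n : ℕ => n * crossOverlap n β t) atTop
          (𝓝 (∑' k : ℕ, t ^ k * mom β x k ^ 2)) ∧
        Tendsto (fun n : ℕ => crossCov n β t) atTop (𝓝 (covLim β x t))) ∧
      -- the Hermite levels: variances, and identification with linear eigenvalue statistics
      Tendsto (fun n : ℕ => level n β 1) atTop (𝓝 0) ∧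
      (∀ k : ℕ, 1 ≤ k →
        Tendsto (fun n : ℕ => level n β (k + 1)) atTop
          (𝓝 (β ^ 2 * mom β x k ^ 2 / (2 * (k + 1)))) ∧
        Tendsto (fun n : ℕ => ∫ g, (levProj n β (k + 1) g - β * mom β x k / (2 * (k + 1)) *
          (trC n (k + 1) g - ∫ h, trC n (k + 1) h ∂(disorder n))) ^ 2 ∂(disorder n))
          atTop (𝓝 0)) ∧
      -- the smoothed free energies: linear eigenvalue statistics, Gaussian limit
      (∀ t : ℝ, 0 ≤ t → t < 1 → ∀ ε : ℝ, 0 < ε → ∃ L₀ : ℕ, ∀ L : ℕ, L₀ ≤ L →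
        ∀ᶠ n : ℕ in atTop, ∫ z, (smooth n β t z -
          ∑ k ∈ Finset.Icc 1 L, β * mom β x k * Real.sqrt t ^ (k + 1) / (2 * (k + 1)) *
            (trC n (k + 1) z - ∫ h, trC n (k + 1) h ∂(disorder n))) ^ 2 ∂(disorder n) ≤ ε) ∧
      ∀ (r : ℕ) (τ : Fin r → ℝ), (∀ i, 0 ≤ τ i ∧ τ i < 1) →
        (Matrix.of fun i j => covLim β x (Real.sqrt (τ i * τ j))).PosSemidef ∧
        TendstoInDistribution (fun (n : ℕ) (z : Pair n → ℝ) =>
            (WithLp.toLp 2 fun i => smooth n β (τ i) z : EuclideanSpace ℝ (Fin r))) atTop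
          (fun y : EuclideanSpace ℝ (Fin r) => y) (fun n => disorder n)
          (multivariateGaussian 0
            (Matrix.of fun i j => covLim β x (Real.sqrt (τ i * τ j)))) := by
  obtain ⟨a, ha, h⟩ := order2
  refine ⟨a, ha, fun β hβ => ?_⟩
  have hβ0 : 0 < β := by linarith
  obtain ⟨ha0, p, x, hx, h1, h2, h3, h4, h5, h6, h7, h8, h9, h10⟩ := h β hβ
  have hm : ∀ k, |mk β x k| ≤ (k : ℝ) + 1 := fun k => by
    rw [abs_of_nonneg (mk_mem hβ0 hx k).1]
    exact (mk_mem hβ0 hx k).2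
  have hl : ∀ t : ℝ, 0 ≤ t → t < 1 → Tendsto (fun n : ℕ => crossCov n β t) atTop
      (𝓝 (β ^ 2 / 2 * ∑' k : ℕ, t ^ (k + 2) * mk β x (k + 1) ^ 2 / ((k : ℝ) + 2))) := by
    intro t ht ht1
    have h := (exact_chaos hβ hx ht ht1).2
    unfold Kinf at h
    have e : ∀ k : ℕ, t ^ (k + 2) / ((k : ℝ) + 2) * mk β x (k + 1) ^ 2 =
        t ^ (k + 2) * mk β x (k + 1) ^ 2 / ((k : ℝ) + 2) := fun k => by ring
    simp_rw [e] at h
    exact h
  obtain ⟨g1, g2⟩ := level_lim hm hl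
  obtain ⟨l1, l2⟩ := H49.lin_plug hβ hx
  have e1 : ∀ k, mom β x k = mk β x k := fun k => (mk_eq_mom hβ hx k).symm
  have e2 : ∀ t, covLim β x t = Kinf β x t := fun t => (Kinf_eq_covLim hβ hx t).symm
  refine ⟨ha0, p, x, h1, h2, h3, h4, h5, h6, h7, h8, h9, h10, fun t ht ht1 => ?_, g1,
    fun k hk => ⟨?_, ?_⟩, fun t ht ht1 ε hε => ?_, fun r τ hτ => ⟨?_, ?_⟩⟩
  · simp_rw [e1, e2]
    exact exact_chaos hβ hx ht ht1
  · rw [e1]
    exact g2 k hk
  · rw [e1]
    exact l1 k hk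
  · simp_rw [e1]
    exact l2 t ht ht1 ε hε
  · simp_rw [e2]
    exact H732.Sg_psd (m := mk β x) (mk_zero β x) hm hβ0.ne' hτ
  · simp_rw [e2]
    exact H732.clt_sk hβ hx hτ

end Vale.Agent.P146.R3.V3
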